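import Vale.Agent.Lib.P160.LO

/-!
# P160: distinct absolute values and the row bound used by the rare-values theorem
-/

namespace Vale.Agent.Lib.P160

open Finset

/-- The number of distinct absolute values among the nonzero coordinates of `w`. -/
noncomputable def dabs {κ : Type} [Fintype κ] (w : κ → ℝ) : ℕ :=
  ((univ.filter fun j => w j ≠ 0).image fun j => |w j|).card

/-- `RowBound D ρ`: every real vector with at least `D` distinct nonzero absolute values has
point probabilities at most `ρ` for its Rademacher sum (over any finite index type). -/
def RowBound (D : ℕ) (ρ : ℝ) : Prop :=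
  ∀ (κ : Type) [Fintype κ] [DecidableEq κ] (w : κ → ℝ) (c : ℝ), D ≤ dabs w →
    ((univ.filter fun x : κ → ℤˣ => sdot x w = c).card : ℝ) ≤ ρ * 2 ^ Fintype.card κ

end Vale.Agent.Lib.P160
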