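import Vale.Agent.Lib.P160.RV.Defs

/-!
# P160: vectors that follow a pattern outside a set of coordinates
-/

namespace Vale.Agent.Lib.P160

open Finset

/-- The vectors that are constant on the fibres of `q` outside `I` (and arbitrary on `I`). -/
def patOut {n L : ℕ} (I : Finset (Fin n)) (q : Fin n → Fin L) : Submodule ℝ (Fin n → ℝ) where
  carrier := {u | ∀ j j', j ∉ I → j' ∉ I → q j = q j' → u j = u j'}
  add_mem' := by
    intro a b ha hb j j' hj hj' h
    show a j + b j = a j' + b j'
    rw [ha j j' hj hj' h, hb j j' hj hj' h]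
  zero_mem' := by
    intro j j' _ _ _
    rfl
  smul_mem' := by
    intro c a ha j j' hj hj' h
    show c * a j = c * a j'
    rw [ha j j' hj hj' h]

theorem mem_patOut {n L : ℕ} {I : Finset (Fin n)} {q : Fin n → Fin L} {u : Fin n → ℝ} :
    u ∈ patOut I q ↔ ∀ j j', j ∉ I → j' ∉ I → q j = q j' → u j = u j' := Iff.rfl

end Vale.Agent.Lib.P160
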